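import Mathlib
import Vale.Agent.P151.Defs
import Vale.Agent.P151.GMain

open Vale.Agent.P151

theorem Vale.Agent.Results.P151.ZQuot.result {V : Type} (G : SimpleGraph V) [G.LocallyFinite]
    (hconn : G.Connected) (Γ : Subgroup (G ≃g G))
    (hqt : ∃ F : Finset V, ∀ v : V, ∃ γ ∈ Γ, γ v ∈ F)
    (ρ : Γ →* Multiplicative (ℤ × ℤ)) (hρ : Function.Surjective ρ)
    (hstab : ∀ (γ : Γ) (v : V), (γ : G ≃g G) v = v → ρ γ = 1) (hpc : pc G < 1) :
    perc G (pc G) (infCluster V) = 0 := by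
  classical
  obtain ⟨F, hF⟩ := hqt
  obtain ⟨Z⟩ := exists_ZQ G hconn Γ F hF ρ hρ hstab
  exact no_perc_at_pc_ZQ G hconn Z hpc
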