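import Mathlib
import Vale.Agent.P151.Defs
import Vale.Agent.P151.Main

open Vale.Agent.P151

theorem Vale.Agent.Results.P151.Zd.result (d : ℕ) (hd : 2 ≤ d) :
    pc (lattice d) < 1 ∧ perc (lattice d) (pc (lattice d)) (infCluster (Fin d → ℤ)) = 0 :=
  ⟨pc_lt_one d hd, no_perc_at_pc d hd⟩
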